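import Vale.Agent.P111.SF.Fin

/-! P111, Q1: the cotype-cotype conjecture. -/

namespace Vale.Agent.Results.P111.CotypeCotype

open Vale.Agent.P111

universe u

theorem result (X : Type u) [NormedAddCommGroup X] [NormedSpace ℝ X] [CompleteSpace X]
    (hB : HasBAP X) (hq : ∃ q : ℝ, HasCotype q X) (hr : ∃ r : ℝ, HasCotype r (X →L[ℝ] ℝ)) :
    IsKConvex X := by
  obtain ⟨q, hq⟩ := hq
  obtain ⟨r, hr⟩ := hr
  exact SF.q1 X hB hq hr

end Vale.Agent.Results.P111.CotypeCotype
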