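import Vale.Agent.P111.FS.Main

/-! P111: large Fourier coefficients of functions with values in a space `X` such that `X` and
`X*` have finite cotype. -/

namespace Vale.Agent.Results.P111.FourierSystems

open Vale.Agent.P111 Vale.Agent.P111.FS

universe u v w

theorem result (q r : ℝ) (hq : 2 ≤ q) (hr : 2 ≤ r) :
    (∀ C ε η : ℝ, 0 < ε → 0 < η → ∃ K : ℝ, ∀ (E : Type v) [NormedAddCommGroup E]
      [NormedSpace ℝ E] [FiniteDimensional ℝ E] [Nontrivial E], CC q r C E →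
      ∀ (G : Type) [AddCommGroup G] [Fintype G] (θ : G → E), (∀ x, ‖θ x‖ ≤ 1) →
      (largeCoef θ ε : ℝ) ≤ K * (Module.finrank ℝ E : ℝ) ^ η) ∧
    (∀ C ε : ℝ, 0 < ε → ∃ s : ℝ, 0 < s ∧ ∃ n₀ : ℕ, ∀ n ≥ n₀,
      ∀ (X : Type v) [NormedAddCommGroup X] [NormedSpace ℝ X], CC q r C X →
      (∀ T : X →L[ℝ] X, ‖T‖ ≤ C → FinRank T → ManyLarge ε n T →
        Real.exp (s * n * Real.log n) ≤ rk T) ∧
      (∀ (H : Type w) [NormedAddCommGroup H] [InnerProductSpace ℝ H] [CompleteSpace H]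
        (a : X →L[ℝ] H) (b : H →L[ℝ] X), ‖b.comp a‖ ≤ C → ManyLarge ε n (b.comp a) →
        Real.exp (s * n * Real.log n) ≤ (‖a‖ * ‖b‖) ^ 2)) ∧
    ((∀ C : ℝ, ∃ n : ℕ, ∀ (X : Type v) [NormedAddCommGroup X] [NormedSpace ℝ X]
        [CompleteSpace X] (T : X →L[ℝ] X), CC q r C X → ‖T‖ ≤ 1 → FinRank T →
        ¬ ManyLarge (1 / 10 ^ 7) n T) →
      ∀ (X : Type v) [NormedAddCommGroup X] [NormedSpace ℝ X] [CompleteSpace X],
        HasBAP X → HasCC q r X → IsKConvex X) ∧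
    (∀ (B c : ℝ), 0 < c → ∀ (X : Type v) [NormedAddCommGroup X] [NormedSpace ℝ X]
      (e : Finset ℕ → X), WalshSystem B c e → SlowApprox B e → ¬ HasCC q r X) ∧
    (∀ (B : ℝ) (G : Type u) [CommGroup G] [TopologicalSpace G] [IsTopologicalGroup G]
      [CompactSpace G] [Infinite (G →ₜ* Circle)] (E : Type v) [NormedAddCommGroup E]
      [NormedSpace ℝ E] [CompleteSpace E] (e : E →L[ℝ] C(G, ℂ)) (τ : G → E → E)
      (w : (G →ₜ* Circle) → E), Homogeneous B e τ w → ¬ HasCC q r E) := by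
  refine ⟨fun C ε η hε hη => fin q r C ε η hq hr hε hη, fun C ε hε => ?_,
    fun h X _ _ _ hB hX => link q r h X hB hX.1 hX.2,
    fun B c hc X _ _ e he hT => inf q r B c hc X e he hT,
    fun B G _ _ _ _ _ E _ _ _ e τ w h => hom q r B G E e τ w h⟩
  obtain ⟨s₁, hs₁, n₁, h₁⟩ := rank.{v} q r C ε hq hr hε
  obtain ⟨s₂, hs₂, n₂, h₂⟩ := hilb.{v, w} q r C ε hq hr hε
  have hmono : ∀ (s s' : ℝ), s ≤ s' → ∀ n : ℕ,
      Real.exp (s * n * Real.log n) ≤ Real.exp (s' * n * Real.log n) := by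
    intro s s' hss n
    refine Real.exp_le_exp.2 ?_
    have h0 : 0 ≤ (n : ℝ) * Real.log n := mul_nonneg n.cast_nonneg (Real.log_natCast_nonneg n)
    nlinarith
  refine ⟨min s₁ s₂, lt_min hs₁ hs₂, max n₁ n₂, fun n hn X _ _ hX => ⟨?_, ?_⟩⟩
  · intro T hT hfd hM
    exact (hmono _ _ (min_le_left _ _) n).trans
      (h₁ n ((le_max_left _ _).trans hn) X T hX hT hfd hM)
  · intro H _ _ _ a b hT hM
    exact (hmono _ _ (min_le_right _ _) n).trans
      (h₂ n ((le_max_right _ _).trans hn) X H a b hX hT hM)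

end Vale.Agent.Results.P111.FourierSystems
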