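import Vale.Agent.P111.HM.Bridge

/-! P111: translation and modulation invariant norms on functions on the discrete cube. -/

namespace Vale.Agent.Results.P111.HeisenbergNorms

open Vale.Agent.P111 (avg sg CotypeWith KConvexWith)
open Vale.Agent.P111.HN

universe v w

/-- (1) The first level functionals are bounded, with `K`-convex coefficients; (2) a general
inequality in spaces of finite cotype; (3) constant functions are large if the dual has finite
cotype; (4) exponential separation from the trivial bounds for scalar functions. -/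
theorem result :
    (∀ q C K B : ℝ, 2 ≤ q → ∃ L : ℝ, 1 ≤ L ∧
      ∀ (Z : Type v) [NormedAddCommGroup Z] [NormedSpace ℝ Z] (X : Type w)
        [NormedAddCommGroup X] [NormedSpace ℝ X], KConvexWith K Z → CotypeWith q C X →
        ∀ (I : Type) [Fintype I] [DecidableEq I] (J : ((I → ℤˣ) → Z) →ₗ[ℝ] X), Heis B J →
        ∀ (θ : I → ℤˣ) (u : (I → ℤˣ) → Z), ‖∑ i, sg (θ i) • coef {i} u‖ ≤ L * ‖J u‖) ∧
    (∀ q C : ℝ, 2 ≤ q → ∃ L : ℝ, 1 ≤ L ∧
      ∀ (X : Type w) [NormedAddCommGroup X] [NormedSpace ℝ X], CotypeWith q C X →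
        ∀ (I : Type) [Fintype I] [DecidableEq I] (a : (I → ℤˣ) → X) (θ : I → ℤˣ)
          (u : (I → ℤˣ) → ℝ),
          (∑ i, sg (θ i) * coef {i} u) ^ 2 * (avg fun x => ‖a x‖ ^ 2) ≤
            L ^ 2 * avg fun g : I → ℤˣ => avg fun S : Finset I =>
              ‖∑ x, (walsh S x * u x) • a (g * x)‖ ^ 2) ∧
    (∀ q r C C' K B κ : ℝ, 2 ≤ q → 2 ≤ r → ∃ L : ℝ,
      ∀ (Z : Type v) [NormedAddCommGroup Z] [NormedSpace ℝ Z] (X : Type w)
        [NormedAddCommGroup X] [NormedSpace ℝ X], KConvexWith K Z → CotypeWith q C X →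
        CotypeWith r C' (X →L[ℝ] ℝ) →
        ∀ (I : Type) [Fintype I] [DecidableEq I] (J : ((I → ℤˣ) → Z) →ₗ[ℝ] X)
          (P : X →ₗ[ℝ] ((I → ℤˣ) → Z)), Heis B J → (∀ u, P (J u) = u) →
          (∀ x, ‖J (P x)‖ ≤ κ * ‖x‖) →
          ∀ z : Z, (Fintype.card I : ℝ) ^ (1 / r) * ‖z‖ ≤ L * ‖J (fun _ => z)‖) ∧
    (∀ q r C C' : ℝ, 2 ≤ q → 2 ≤ r → ∃ h : ℕ, 1 ≤ h ∧
      ∀ (X : Type w) [NormedAddCommGroup X] [NormedSpace ℝ X], CotypeWith q C X →
        CotypeWith r C' (X →L[ℝ] ℝ) →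
        ∀ (I : Type) [Fintype I] [DecidableEq I] (J : ((I → ℤˣ) → ℝ) ≃ₗ[ℝ] X),
          HeisInv J.toLinearMap →
          2 ^ (Fintype.card I / h) * ‖J (pm (1:ℝ))‖ ≤ ‖J (fun _ => (1:ℝ))‖ ∧
          2 ^ (Fintype.card I / h) * ‖J (fun _ => (1:ℝ))‖ ≤
            2 ^ Fintype.card I * ‖J (pm (1:ℝ))‖) :=
  ⟨part_one.{v, w}, part_two.{w}, part_three.{v, w}, part_four.{w}⟩

end Vale.Agent.Results.P111.HeisenbergNorms
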