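import Vale.Agent.P111.SY.StDefs
import Vale.Agent.P111.SY.Inf

/-! P111: symmetric homogeneous norms on vector valued functions; arbitrary space of values. -/

namespace Vale.Agent.Results.P111.SymmetricVectorValued

open Vale.Agent.P111 Vale.Agent.P111.SYM

universe v w

/-- (1) finite groups `{-1,1}^D`, quantitative; (2) the Cantor group `{-1,1}^ℕ`. -/
theorem result :
    (∀ q r C : ℝ, 2 ≤ q → 2 ≤ r → ∃ D₀ : ℕ, ∀ D ≥ D₀,
      ∀ (V : Type v) [NormedAddCommGroup V] [NormedSpace ℝ V] [Nontrivial V]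
        (E : Type w) [NormedAddCommGroup E] [NormedSpace ℝ E]
        (e : E ≃ₗ[ℝ] ((Fin D → ℤˣ) → V)), SymNorm C e →
        ¬ (CotypeWith q C E ∧ CotypeWith r C (E →L[ℝ] ℝ))) ∧
    (∀ (q r B : ℝ) (V : Type v) [NormedAddCommGroup V] [NormedSpace ℝ V] [Nontrivial V]
      (E : Type w) [NormedAddCommGroup E] [NormedSpace ℝ E] [CompleteSpace E]
      (e : E →L[ℝ] C(ℕ → ℤˣ, V)) (τ : (ℕ → ℤˣ) → E → E) (u : Finset ℕ → V → E),
      SymHom B e τ u → ¬ (HasCotype q E ∧ HasCotype r (E →L[ℝ] ℝ))) := by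
  refine ⟨fun q r C hq hr => ?_, ?_⟩
  · obtain ⟨D₀, hD₀⟩ := SY.sym_main.{v, w} q r (max C 1) hq hr (le_max_right _ _)
    refine ⟨D₀, fun D hD V _ _ _ E _ _ e h h56 =>
      hD₀ D hD V E e ⟨?_, ?_, ?_, ?_⟩ ?_ ?_⟩
    · exact fun f x => (h.sup_le f x).trans
        (mul_le_mul_of_nonneg_right (le_max_left _ _) (norm_nonneg _))
    · intro g f
      have := h.trans f g
      simpa only [mul_comm] using this
    · intro σ f
      exact h.perm f σ
    · exact fun S v => (h.char S v).trans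
        (mul_le_mul_of_nonneg_right (le_max_left _ _) (norm_nonneg _))
    · exact TK.CotypeWith.mono' h56.1 (le_max_left _ _)
    · exact TK.CotypeWith.mono' h56.2 (le_max_left _ _)
  · intro q r B V _ _ _ E _ _ _ e τ u h
    exact SY.sym_inf q r V E e τ B u ⟨h.inj, h.trans, h.norm, h.cont, h.char, h.bdd⟩ h.perm

end Vale.Agent.Results.P111.SymmetricVectorValued
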